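import Vale.Agent.P296.MathlibUsed

/-!
# P296 (Griffiths' positivity conjecture): definitions used in the final statement
-/

namespace Vale.Agent.P296.Final

open Complex Matrix
open scoped ContDiff ComplexOrder

section basic

variable {V : Type} [NormedAddCommGroup V] [NormedSpace ℂ V]

/-- `f` is `C^∞` (in the real sense) on `U`. -/
def Smooth (f : V → ℂ) (U : Set V) : Prop := ContDiffOn ℝ ∞ f U

/-- `f` is holomorphic on `U`. -/
def Holo (f : V → ℂ) (U : Set V) : Prop := DifferentiableOn ℂ f U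

/-- `∂_ξ f (z) = ∑ ξ_k ∂f/∂z_k`. -/
noncomputable def del (f : V → ℂ) (ξ z : V) : ℂ :=
  (fderiv ℝ f z ξ - I * fderiv ℝ f z (I • ξ)) / 2

/-- `∂̄_ξ f (z) = ∑ ξ̄_k ∂f/∂z̄_k`. -/
noncomputable def delbar (f : V → ℂ) (ξ z : V) : ℂ :=
  (fderiv ℝ f z ξ + I * fderiv ℝ f z (I • ξ)) / 2

/-- `∂_ξ ∂̄_ξ f (z) = ∑ ξ_j ξ̄_k ∂²f/∂z_j∂z̄_k`. -/
noncomputable def levi (f : V → ℂ) (ξ : V) : V → ℂ := del (delbar f ξ) ξ

/-- A holomorphic vector bundle of rank `r` on the complex torus `V/Λ`, given by holomorphic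
transition matrices: the open sets `U i ⊂ V` cover the torus, the bundle is trivialised over
`U i`, and for `l ∈ Λ`, `z ∈ U j`, `z + l ∈ U i` the vector with coordinates `v` in the
trivialisation `j` over `z` is the vector with coordinates `g i j l z *ᵥ v` in the
trivialisation `i` over `z + l` (the same point of the torus). -/
structure Bundle (Λ : Set V) (r : ℕ) where
  ι : Type
  U : ι → Set V
  isOpen_U : ∀ i, IsOpen (U i)
  cover : ∀ z, ∃ i, ∃ l ∈ Λ, z + l ∈ U i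
  g : ι → ι → V → V → Matrix (Fin r) (Fin r) ℂ
  holo : ∀ i j, ∀ l ∈ Λ, ∀ a b, Holo (fun z => g i j l z a b) {z | z ∈ U j ∧ z + l ∈ U i}
  g_self : ∀ i, ∀ z ∈ U i, g i i 0 z = 1
  cocycle : ∀ i j k, ∀ l ∈ Λ, ∀ m ∈ Λ, ∀ z ∈ U k, z + m ∈ U j → z + m + l ∈ U i →
    g i j l (z + m) * g j k m z = g i k (l + m) z

variable {Λ : Set V} {r : ℕ}

/-- A smooth Hermitian metric: over `z ∈ U i` the squared length of the vector with coordinates
`v` is `v* h(z) v`. -/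
structure Metric (E : Bundle Λ r) where
  h : E.ι → V → Matrix (Fin r) (Fin r) ℂ
  smooth : ∀ i a b, Smooth (fun z => h i z a b) (E.U i)
  posDef : ∀ i, ∀ z ∈ E.U i, (h i z).PosDef
  compat : ∀ i j, ∀ l ∈ Λ, ∀ z ∈ E.U j, z + l ∈ E.U i →
    h j z = (E.g i j l z)ᴴ * h i (z + l) * E.g i j l z

/-- The Chern curvature `⟨Θ(ξ,ξ̄)v, v⟩ = v* (-∂_ξ∂̄_ξ h + (∂_ξ h)* h⁻¹ (∂_ξ h)) v`. -/
noncomputable def curvature (h : V → Matrix (Fin r) (Fin r) ℂ) (z ξ : V) (v : Fin r → ℂ) : ℂ :=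
  let dh : Matrix (Fin r) (Fin r) ℂ := .of fun a b => del (fun w => h w a b) ξ z
  star v ⬝ᵥ ((dhᴴ * (h z)⁻¹ * dh - .of fun a b => levi (fun w => h w a b) ξ z) *ᵥ v)

/-- Strict Griffiths positivity. -/
def Metric.GriffithsPositive {E : Bundle Λ r} (H : Metric E) : Prop :=
  ∀ i, ∀ z ∈ E.U i, ∀ ξ ≠ 0, ∀ v ≠ 0, 0 < (curvature (H.h i) z ξ v).re

/-- A smooth Hermitian metric on the tautological line bundle `O(-1)` over `ℙ(E)` (one-dimensional
quotients of `E` = lines in the dual bundle `E*`): `F i (z, u)` is the squared length of the dual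
vector with coordinates (row vector) `u ≠ 0` over `z ∈ U i`. -/
structure DualFinsler (E : Bundle Λ r) where
  F : E.ι → V × (Fin r → ℂ) → ℝ
  smooth : ∀ i, Smooth (fun p => (F i p : ℂ)) {p | p.1 ∈ E.U i ∧ p.2 ≠ 0}
  pos : ∀ i, ∀ z ∈ E.U i, ∀ u ≠ 0, 0 < F i (z, u)
  homog : ∀ i, ∀ z ∈ E.U i, ∀ u ≠ 0, ∀ t : ℂ, t ≠ 0 → F i (z, t • u) = ‖t‖ ^ 2 * F i (z, u)
  compat : ∀ i j, ∀ l ∈ Λ, ∀ z ∈ E.U j, z + l ∈ E.U i → ∀ u ≠ 0,
    F j (z, u ᵥ* E.g i j l z) = F i (z + l, u)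

/-- `E` is ample: the line bundle `O(1)` over `ℙ(E)` carries a smooth Hermitian metric with
positive curvature. -/
def Bundle.IsAmple (E : Bundle Λ r) : Prop :=
  ∃ F : DualFinsler E, ∀ i, ∀ z ∈ E.U i, ∀ u ≠ 0, ∀ ξ w, ¬ (ξ = 0 ∧ ∃ c : ℂ, w = c • u) →
    0 < (levi (fun p => (Real.log (F.F i p) : ℂ)) (ξ, w) (z, u)).re

end basic

/-- The lattice `ℤ[i]² ⊂ ℂ²`; the quotient `ℂ²/ℤ[i]²` is the square of the elliptic curve
`ℂ/ℤ[i]`, an abelian surface. -/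
def gauss : Set (ℂ × ℂ) := {z | ∃ a b c d : ℤ, z = (a + b * I, c + d * I)}

end Vale.Agent.P296.Final
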